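import Vale.Agent.P151.MathlibUsed

open MeasureTheory ProbabilityTheory

namespace Vale.Agent.P151

universe u

variable {V : Type u}

/-- The open cluster of `x` when `ω` is the set of open edges. -/
def cluster (ω : Set (Sym2 V)) (x : V) : Set V :=
  {y | (SimpleGraph.fromEdgeSet ω).Reachable x y}

/-- The event that some open cluster is infinite. -/
def hasInfiniteCluster (V : Type u) : Set (Set (Sym2 V)) :=
  {ω | ∃ x : V, (cluster ω x).Infinite}

/-- The critical probability of Bernoulli bond percolation on `G`; here
`setBernoulli G.edgeSet p` is the law of the random set of open edges, each edge of `G` being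
open with probability `p`, independently. -/
noncomputable def pc (G : SimpleGraph V) : ℝ :=
  sInf {p : ℝ | ∃ h : p ∈ Set.Icc (0 : ℝ) 1,
    0 < setBernoulli G.edgeSet (⟨p, h⟩ : unitInterval) (hasInfiniteCluster V)}

/-- The automorphism group of `G` has finitely many orbits on vertices. -/
def IsQuasiTransitive (G : SimpleGraph V) : Prop :=
  ∃ S : Finset V, ∀ x : V, ∃ y ∈ S, ∃ φ : G ≃g G, φ y = x

/-- The outer vertex boundary of a finite set of vertices. -/
def outerBoundary (G : SimpleGraph V) (W : Finset V) : Set V :=
  {y | y ∉ W ∧ ∃ x ∈ W, G.Adj x y}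

/-- The graph `G` is amenable: some finite sets have an arbitrarily small relative boundary. -/
def IsAmenable (G : SimpleGraph V) : Prop :=
  ∀ ε : ℝ, 0 < ε → ∃ W : Finset V, W.Nonempty ∧ ((outerBoundary G W).ncard : ℝ) ≤ ε * W.card

end Vale.Agent.P151
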