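import Mathlib.Algebra.Order.Group.End
import Mathlib.Algebra.Order.Quantale
import Mathlib.Analysis.Complex.ExponentialBounds
import Mathlib.Analysis.PSeries
import Mathlib.Combinatorics.SetFamily.FourFunctions
import Mathlib.Combinatorics.SimpleGraph.Diam
import Mathlib.Computability.Reduce
import Mathlib.Data.Int.Star
import Mathlib.Data.Pi.Interval
import Mathlib.GroupTheory.FiniteAbelian.Basic
import Mathlib.GroupTheory.Nilpotent
import Mathlib.GroupTheory.Schreier
import Mathlib.LinearAlgebra.Complex.FiniteDimensional
import Mathlib.ModelTheory.Graph
import Mathlib.Order.CompletePartialOrder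
import Mathlib.Probability.Distributions.SetBernoulli
import Mathlib.Tactic
import Mathlib.Topology.Algebra.ProperAction.Basic
import Mathlib.Topology.Order.LowerUpperTopology

/-! The part of Mathlib that the development of this folder uses. -/
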